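import Vale.Agent.P167.H601.Q.Split
import Vale.Agent.P167.H398.Q.CDefs
import Vale.Agent.P167.CAQ.J6
import Vale.Agent.P167.H662.Q.Err

/-!
# P167, general `q`, block Q-START: the closed frame (`H398.Q.ClsS`)

The arms which could be seen outside of `D` are the same for all configurations; an arm in `D` next to
frozen squares has small probability, because the law in `D` depends on the marks only.
-/

namespace Vale.Agent.P167.H601.Q

open Finset Relation Vale.Agent.P167.FK Vale.Agent.P167.FKA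
open Vale.Agent.P145.FB (PStep PConn)
open Vale.Agent.P167.E6 (IsPolygon Encloses)
open Vale.Agent.P167.H718 (Dob)
open Vale.Agent.P167.H398.Q (Arm NA Tch ClsS)

variable {Q : ℝ} {D : Finset (ℤ × ℤ)} {η : Cfg}

/-- Cauchy-Schwarz with an indicator. -/
theorem cs_ind (hQ : 0 < Q) (X : Cfg → ℝ) (A : Set Cfg) :
    Ex Q D η (fun ω => X ω * A.indicator 1 ω) ^ 2 ≤
      Ex Q D η (fun ω => X ω ^ 2) * Ex Q D η (A.indicator 1) := by
  have h : ∀ t : ℝ, 0 ≤ Ex Q D η (A.indicator 1) * (t * t) +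
      (-2 * Ex Q D η (fun ω => X ω * A.indicator 1 ω)) * t + Ex Q D η (fun ω => X ω ^ 2) := by
    intro t
    have h1 : 0 ≤ Ex Q D η (fun ω => (X ω - t * A.indicator 1 ω) ^ 2) :=
      Ex_nonneg hQ fun S _ => sq_nonneg _
    have h2 : Ex Q D η (fun ω => (X ω - t * A.indicator 1 ω) ^ 2) =
        Ex Q D η (fun ω => X ω ^ 2 - (2 * t) * (X ω * A.indicator 1 ω) +
          (t * t) * A.indicator 1 ω) := by
      refine Ex_congr fun S _ => ?_
      by_cases h : cf D η S ∈ A
      · rw [Set.indicator_of_mem h]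
        simp only [Pi.one_apply]
        ring
      · rw [Set.indicator_of_notMem h]
        ring
    rw [h2, Ex_add, Ex_sub, Ex_mul_left, Ex_mul_left] at h1
    have h3 : Ex Q D η (fun ω => A.indicator 1 ω) = Ex Q D η (A.indicator 1) := rfl
    rw [h3] at h1
    linarith
  have h4 := discrim_le_zero h
  unfold discrim at h4
  linarith

/-- **Removing a rare event.** -/
theorem rare (hQ : 0 < Q) {X : Cfg → ℝ} {A : Set Cfg} {M e : ℝ}
    (hX : Ex Q D η (fun ω => X ω ^ 2) ≤ M) (hA : Ex Q D η (Aᶜ.indicator 1) ≤ e) (he : e ≤ 1 / 2) :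
    |Ex Q D η (fun ω => X ω * A.indicator 1 ω) - Ex Q D η X * Ex Q D η (A.indicator 1)| ≤
      4 * (Real.sqrt (M * e) + |Ex Q D η X| * e) * Ex Q D η (A.indicator 1) := by
  have hz0 : 0 ≤ Ex Q D η (Aᶜ.indicator 1) := Ex_nonneg hQ fun S _ => ind_nonneg _ _
  have he0 : 0 ≤ e := hz0.trans hA
  have hX0 : 0 ≤ Ex Q D η (fun ω => X ω ^ 2) := Ex_nonneg hQ fun S _ => sq_nonneg _
  have hM0 : 0 ≤ M := hX0.trans hX
  have h1 : Ex Q D η (fun ω => X ω * A.indicator 1 ω) =
      Ex Q D η X - Ex Q D η (fun ω => X ω * Aᶜ.indicator 1 ω) := by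
    rw [← Ex_sub]
    exact Ex_congr fun S _ => by rw [ind_compl]; ring
  have h2 : Ex Q D η (A.indicator 1) = 1 - Ex Q D η (Aᶜ.indicator 1) := by
    have h := Ex_const (Q := Q) (D := D) (η := η) hQ 1
    rw [← h, ← Ex_sub]
    exact Ex_congr fun S _ => by rw [ind_compl]; ring
  have h3 : |Ex Q D η (fun ω => X ω * Aᶜ.indicator 1 ω)| ≤ Real.sqrt (M * e) := by
    rw [← Real.sqrt_sq_eq_abs]
    exact Real.sqrt_le_sqrt ((cs_ind hQ X Aᶜ).trans (mul_le_mul hX hA hz0 hM0))
  have h4 : |Ex Q D η X * Ex Q D η (Aᶜ.indicator 1)| ≤ |Ex Q D η X| * e := by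
    rw [abs_mul, abs_of_nonneg hz0]
    exact mul_le_mul_of_nonneg_left hA (abs_nonneg _)
  have h5 : |Ex Q D η (fun ω => X ω * A.indicator 1 ω) - Ex Q D η X * Ex Q D η (A.indicator 1)| ≤
      Real.sqrt (M * e) + |Ex Q D η X| * e := by
    rw [h1, h2]
    have e1 : Ex Q D η X - Ex Q D η (fun ω => X ω * Aᶜ.indicator 1 ω) -
        Ex Q D η X * (1 - Ex Q D η (Aᶜ.indicator 1)) =
        Ex Q D η X * Ex Q D η (Aᶜ.indicator 1) -
          Ex Q D η (fun ω => X ω * Aᶜ.indicator 1 ω) := by ring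
    rw [e1]
    refine (abs_sub _ _).trans ?_
    linarith
  have h6 : 0 ≤ Real.sqrt (M * e) + |Ex Q D η X| * e :=
    add_nonneg (Real.sqrt_nonneg _) (mul_nonneg (abs_nonneg _) he0)
  refine h5.trans ?_
  rw [h2]
  nlinarith

/-- The probability of an arm in `D` next to frozen squares. -/
theorem pr_InA {α C : ℝ} (hQ : 1 ≤ Q) (hdec : ArmDec Q α C) {N : ℕ}
    {K : Finset (ℤ × ℤ)} {σ : Cfg} {q : ZMod N → ℤ × ℤ} {k : ℕ} (hq : IsPolygon q)
    (hD : Encloses q D) (hk : k ≤ N)
    (hdob : ∀ η : Cfg, Good η → (∀ v ∈ K, η v = σ v) → Dob η D q k)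
    {x : ℤ × ℤ} {b : Bool} {r R : ℤ} (hr : 1 ≤ r) (hrR : r < R)
    (hcol : ∀ v ∈ K, v ∈ Bq x R → σ v = b) (hη : Good η) (hησ : ∀ v ∈ K, η v = σ v) :
    Ex Q D η ((InA b x r R D).indicator 1) ≤ C * ((r : ℝ) / R) ^ α := by
  classical
  have hQ0 : 0 < Q := by linarith
  -- the configuration with the colour `b` near `x`
  set η' : Cfg := cf (Bq x R \ D) η (if b = true then Bq x R \ D else ∅) with hη'
  have hin : ∀ v ∈ Bq x R, v ∉ D → η' v = b := by
    intro v hv hvD
    have h1 : v ∈ Bq x R \ D := Finset.mem_sdiff.2 ⟨hv, hvD⟩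
    rw [hη']
    unfold cf
    rw [if_pos h1]
    cases b
    · simp
    · simpa using h1
  have hout : ∀ v, v ∉ Bq x R \ D → η' v = η v := fun v hv => cf_out hv
  have hg : Good η' := f_good.1 _ _ _ hη
  have hK' : ∀ v ∈ K, η' v = σ v := by
    intro v hv
    by_cases h : v ∈ Bq x R \ D
    · rw [hin v (Finset.mem_sdiff.1 h).1 (Finset.mem_sdiff.1 h).2,
        hcol v hv (Finset.mem_sdiff.1 h).1]
    · rw [hout v h, hησ v hv]
  rw [CAQ.J.ex_dob hq hD hk (hdob η hη hησ) (hdob η' hg hK') hQ0 loc_InA]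
  -- in this configuration
  have h1 : Ex Q D η' ((InA b x r R D).indicator 1) ≤ Ex Q D η' ({ω | Arm b x r R ω}.indicator 1) := by
    refine Ex_mono hQ0 fun S _ => ?_
    refine Set.indicator_le_indicator_of_subset ?_ (fun _ => zero_le_one) _
    intro ω hω
    exact arm_iff.1 (ArmI.mono Set.inter_subset_left hω)
  refine h1.trans ?_
  have hone : Ex Q D η' (fun _ => (1 : ℝ) * 1) = 1 := by
    rw [one_mul]
    exact Ex_const hQ0 1
  have hI1 : Ind (D ∩ (Bq x R \ Bq x r)) (fun _ => (1 : ℝ)) := fun _ _ _ => rfl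
  cases b
  · have h2 := H662.Q.err_fr_dec (x := x) (r := r) (R := R) (A := D) (B := Bq x R \ Bq x r)
      (F := fun _ => 1) (T := fun _ => 1) (ξ := η') hQ hdec hr hrR.le hg
      (fun v hv hvD => hin v (Finset.mem_sdiff.1 hv).1 hvD) subset_rfl (fun _ => zero_le_one)
      hI1 (fun _ => zero_le_one) (fun _ _ _ => le_rfl)
    rw [hone, mul_one] at h2
    refine le_trans (le_of_eq ?_) h2
    exact Ex_congr fun S _ => by rw [one_mul, one_mul]; rfl
  · have h2 := H662.Q.err_wr_dec (x := x) (r := r) (R := R) (A := D) (B := Bq x R \ Bq x r)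
      (F := fun _ => 1) (T := fun _ => 1) (ξ := η') hQ hdec hr hrR.le hg
      (fun v hv hvD => hin v (Finset.mem_sdiff.1 hv).1 hvD) subset_rfl (fun _ => zero_le_one)
      hI1 (fun _ => zero_le_one) (fun _ _ _ => le_rfl)
    rw [hone, mul_one] at h2
    refine le_trans (le_of_eq ?_) h2
    exact Ex_congr fun S _ => by rw [one_mul, one_mul]; rfl

/-- **The closed frame.** -/
theorem cls : ClsS := by
  intro Q α C hQ hC hdec N D K σ q k hq hD hk hdob hK ι I c b r R hr hrR hcol e he he2 η hη hησ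
    X hX M hM
  classical
  have hQ0 : 0 < Q := by linarith
  by_cases hoff : ∃ i ∈ I, ArmI (b i) (c i) r R (fc (b i) η ∩ (↑D : Set (ℤ × ℤ))ᶜ)
  · -- an arm outside of `D`
    obtain ⟨i, hi, ha⟩ := hoff
    have h0 : ∀ S, S ⊆ D → (NA I b c r R).indicator (1 : Cfg → ℝ) (cf D η S) = 0 := by
      intro S _
      have hmem : Arm (b i) (c i) r R (cf D η S) := by
        refine arm_iff.1 (ArmI.mono (F := fc (b i) η ∩ (↑D : Set (ℤ × ℤ))ᶜ) ?_ ha)
        rw [← fc_off (ω := cf D η S) (ω' := η) fun v hv => cf_out hv]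
        exact Set.inter_subset_left
      exact Set.indicator_of_notMem (fun h : cf D η S ∈ NA I b c r R => h i hi hmem) _
    have h1 : Ex Q D η (fun ω => X ω * (NA I b c r R).indicator 1 ω) = 0 := by
      rw [← Ex_const (Q := Q) (D := D) (η := η) hQ0 0]
      exact Ex_congr fun S hS => by rw [h0 S hS, mul_zero]
    have h2 : Ex Q D η ((NA I b c r R).indicator 1) = 0 := by
      rw [← Ex_const (Q := Q) (D := D) (η := η) hQ0 0]
      exact Ex_congr fun S hS => h0 S hS
    rw [h1, h2]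
    simp
  · push Not at hoff
    refine rare hQ0 hM (le_trans ?_ he) he2
    have h1 := H662.Q.err_union (Q := Q) (A := D) (ξ := η) hQ0 I
      (fun i => {ω | Arm (b i) (c i) r R ω}) (fun _ => C * ((r : ℝ) / R) ^ α) (H := fun _ => 1)
      (fun _ => zero_le_one) ?_
    · rw [Ex_const hQ0, mul_one, Finset.sum_const, nsmul_eq_mul] at h1
      refine le_trans (le_of_eq ?_) h1
      refine Ex_congr fun S _ => ?_
      rw [one_mul]
      congr 1
      ext ω
      simp only [NA, Set.mem_compl_iff, Set.mem_ofPred_eq, not_forall, not_not, Set.mem_iUnion]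
    · intro i hi
      rw [Ex_const hQ0, mul_one]
      refine le_trans (le_of_eq ?_) (pr_InA hQ hdec hq hD hk hdob hr hrR (hcol i hi) hη hησ)
      refine Ex_congr fun S _ => ?_
      rw [one_mul]
      have h2 : cf D η S ∈ {ω | Arm (b i) (c i) r R ω} ↔ cf D η S ∈ InA (b i) (c i) r R D := by
        constructor
        · intro h
          have h3 : ArmI (b i) (c i) r R (fc (b i) (cf D η S)) := arm_iff.2 h
          have h5 : ∀ v ∉ D, ∀ w ∈ D, |v.1 - w.1| ≤ 1 ∧ |v.2 - w.2| ≤ 1 → v ∈ Bq (c i) R →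
              v ∉ fc (b i) (cf D η S) := by
            intro v hv w hw hvw hvB hvF
            have hvK := hK v hv w hw hvw
            refine hvF ?_
            rw [cf_out hv, hησ v hvK]
            exact hcol i hi v hvK hvB
          rcases armI_split hrR h5 h3 with h4 | h4
          · exact h4
          · rw [fc_off (ω := cf D η S) (ω' := η) fun v hv => cf_out hv] at h4
            exact absurd h4 (hoff i hi)
        · intro h
          exact arm_iff.1 (ArmI.mono Set.inter_subset_left h)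
      by_cases h : cf D η S ∈ InA (b i) (c i) r R D
      · rw [Set.indicator_of_mem h, Set.indicator_of_mem (h2.2 h)]
      · rw [Set.indicator_of_notMem h, Set.indicator_of_notMem fun h' => h (h2.1 h')]

end Vale.Agent.P167.H601.Q
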