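import Vale.Agent.P167.FKA.Basic

/-!
# P167, general `q`, block Q-START: arms inside and outside of a domain

`ArmI b x r R F`: a path of diagonals of squares of `F` across the annulus `(x; r, R)`. If the squares
outside of `D` which touch `D` are not in `F`, such a path stays in `D` or outside of `D`.
-/

namespace Vale.Agent.P167.H601.Q

open Finset Relation Vale.Agent.P167.FK Vale.Agent.P167.FKA
open Vale.Agent.P145.FB (PStep PConn)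

variable {b : Bool} {x : ℤ × ℤ} {r R : ℤ} {ω ω' η : Cfg} {D : Finset (ℤ × ℤ)}

/-- The squares of the colour opposite to `b`. -/
def fc (b : Bool) (ω : Cfg) : Set (ℤ × ℤ) := {v | ω v ≠ b}

/-- The sites joined by the squares of the colour opposite to `b`. -/
def par (b : Bool) (s : ℤ × ℤ) : Prop := if b = true then Odd (s.1 + s.2) else Even (s.1 + s.2)

/-- An arm in the squares of `F`. -/
def ArmI (b : Bool) (x : ℤ × ℤ) (r R : ℤ) (F : Set (ℤ × ℤ)) : Prop :=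
  ∃ u v : ℤ × ℤ, par b u ∧ nm (u - x) ≤ r ∧ R ≤ nm (v - x) ∧ PConn F {w | nm (w - x) ≤ R} u v

theorem ArmI.mono {F F' : Set (ℤ × ℤ)} (h : F ⊆ F') (ha : ArmI b x r R F) : ArmI b x r R F' := by
  obtain ⟨u, v, h1, h2, h3, h4⟩ := ha
  exact ⟨u, v, h1, h2, h3, h4.mono h subset_rfl⟩

theorem fc_true (ω : Cfg) : fc true ω = (op ω)ᶜ := rfl

theorem fc_false (ω : Cfg) : fc false ω = op ω := by
  ext v
  show ω v ≠ false ↔ ω v = true
  simp

theorem arm_iff : ArmI b x r R (fc b ω) ↔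
    (if b = true then ArmDx x r R ω else ArmPx x r R ω) := by
  cases b
  · rw [fc_false]
    rfl
  · rw [fc_true]
    rfl

/-- The square of a step in the box. -/
theorem mem_Bq_of_step {y z : ℤ × ℤ} (h1 : z.1 = y.1 + 1 ∨ z.1 = y.1 - 1)
    (h2 : z.2 = y.2 + 1 ∨ z.2 = y.2 - 1) (hy : nm (y - x) ≤ R) (hz : nm (z - x) ≤ R) :
    (min y.1 z.1, min y.2 z.2) ∈ Bq x R := by
  unfold nm at hy hz
  rw [max_le_iff, abs_le, abs_le] at hy hz
  simp only [Prod.fst_sub, Prod.snd_sub] at hy hz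
  unfold Bq
  rw [Finset.mem_product, Finset.mem_Ico, Finset.mem_Ico]
  dsimp only
  omega

/-- **A path stays in `D` or outside of `D`.** -/
theorem split {F : Set (ℤ × ℤ)}
    (hK : ∀ v ∉ D, ∀ w ∈ D, |v.1 - w.1| ≤ 1 ∧ |v.2 - w.2| ≤ 1 → v ∈ Bq x R → v ∉ F)
    {u v : ℤ × ℤ} (h : PConn F {w | nm (w - x) ≤ R} u v) :
    v = u ∨ PConn (F ∩ (↑D : Set (ℤ × ℤ))) {w | nm (w - x) ≤ R} u v ∨
      PConn (F ∩ (↑D : Set (ℤ × ℤ))ᶜ) {w | nm (w - x) ≤ R} u v := by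
  classical
  obtain ⟨hu, h⟩ := h
  have key : v = u ∨
      (∃ y, nm (y - x) ≤ R ∧ nm (v - x) ≤ R ∧ PStep (F ∩ (↑D : Set (ℤ × ℤ))) y v ∧
        PConn (F ∩ (↑D : Set (ℤ × ℤ))) {w | nm (w - x) ≤ R} u v) ∨
      (∃ y, nm (y - x) ≤ R ∧ nm (v - x) ≤ R ∧ PStep (F ∩ (↑D : Set (ℤ × ℤ))ᶜ) y v ∧
        PConn (F ∩ (↑D : Set (ℤ × ℤ))ᶜ) {w | nm (w - x) ≤ R} u v) := by
    induction h with
    | refl => exact Or.inl rfl
    | @tail y z _ hyz ih =>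
      obtain ⟨⟨h1, h2, h3⟩, hz⟩ := hyz
      have hz' : nm (z - x) ≤ R := hz
      right
      by_cases hw : (min y.1 z.1, min y.2 z.2) ∈ D
      · left
        have hs : PStep (F ∩ (↑D : Set (ℤ × ℤ))) y z := ⟨h1, h2, h3, hw⟩
        rcases ih with rfl | ⟨t, ht, hy, hs', hc⟩ | ⟨t, ht, hy, hs', hc⟩
        · exact ⟨y, hu, hz', hs, (PConn.refl hu).tail hs hz⟩
        · exact ⟨y, hy, hz', hs, hc.tail hs hz⟩
        · exfalso
          obtain ⟨h4, h5, h6, h7⟩ := hs'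
          refine hK _ h7 _ hw ?_ (mem_Bq_of_step h4 h5 ht hy) h6
          dsimp only
          rw [abs_le, abs_le]
          omega
      · right
        have hs : PStep (F ∩ (↑D : Set (ℤ × ℤ))ᶜ) y z := ⟨h1, h2, h3, hw⟩
        rcases ih with rfl | ⟨t, ht, hy, hs', hc⟩ | ⟨t, ht, hy, hs', hc⟩
        · exact ⟨y, hu, hz', hs, (PConn.refl hu).tail hs hz⟩
        · exfalso
          obtain ⟨h4, h5, h6, h7⟩ := hs'
          refine hK _ hw _ h7 ?_ (mem_Bq_of_step h1 h2 hy hz') h3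
          dsimp only
          rw [abs_le, abs_le]
          omega
        · exact ⟨y, hy, hz', hs, hc.tail hs hz⟩
  rcases key with h | ⟨-, -, -, -, h⟩ | ⟨-, -, -, -, h⟩
  · exact Or.inl h
  · exact Or.inr (Or.inl h)
  · exact Or.inr (Or.inr h)

/-- **An arm is in `D` or outside of `D`.** -/
theorem armI_split {F : Set (ℤ × ℤ)} (hrR : r < R)
    (hK : ∀ v ∉ D, ∀ w ∈ D, |v.1 - w.1| ≤ 1 ∧ |v.2 - w.2| ≤ 1 → v ∈ Bq x R → v ∉ F)
    (h : ArmI b x r R F) :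
    ArmI b x r R (F ∩ (↑D : Set (ℤ × ℤ))) ∨ ArmI b x r R (F ∩ (↑D : Set (ℤ × ℤ))ᶜ) := by
  obtain ⟨u, v, h1, h2, h3, h4⟩ := h
  rcases split hK h4 with rfl | h | h
  · omega
  · exact Or.inl ⟨u, v, h1, h2, h3, h⟩
  · exact Or.inr ⟨u, v, h1, h2, h3, h⟩

theorem fc_in (h : ∀ v ∈ D, ω v = ω' v) :
    fc b ω ∩ (↑D : Set (ℤ × ℤ)) = fc b ω' ∩ (↑D : Set (ℤ × ℤ)) := by
  ext v
  simp only [Set.mem_inter_iff, fc, Set.mem_ofPred_eq, Finset.mem_coe]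
  constructor
  · rintro ⟨h1, h2⟩
    exact ⟨by rwa [← h v h2], h2⟩
  · rintro ⟨h1, h2⟩
    exact ⟨by rwa [h v h2], h2⟩

theorem fc_off (h : ∀ v ∉ D, ω v = ω' v) :
    fc b ω ∩ (↑D : Set (ℤ × ℤ))ᶜ = fc b ω' ∩ (↑D : Set (ℤ × ℤ))ᶜ := by
  ext v
  simp only [Set.mem_inter_iff, fc, Set.mem_ofPred_eq, Set.mem_compl_iff, Finset.mem_coe]
  constructor
  · rintro ⟨h1, h2⟩
    exact ⟨by rwa [← h v h2], h2⟩
  · rintro ⟨h1, h2⟩
    exact ⟨by rwa [h v h2], h2⟩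

/-- Arms inside of `D`. -/
def InA (b : Bool) (x : ℤ × ℤ) (r R : ℤ) (D : Finset (ℤ × ℤ)) : Set Cfg :=
  {ω | ArmI b x r R (fc b ω ∩ (↑D : Set (ℤ × ℤ)))}

theorem loc_InA : Loc D ((InA b x r R D).indicator (1 : Cfg → ℝ)) := by
  intro ω ω' h
  have h1 : ω ∈ InA b x r R D ↔ ω' ∈ InA b x r R D := by
    show ArmI b x r R (fc b ω ∩ (↑D : Set (ℤ × ℤ))) ↔ ArmI b x r R (fc b ω' ∩ (↑D : Set (ℤ × ℤ)))
    rw [fc_in h]
  by_cases h2 : ω ∈ InA b x r R D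
  · rw [Set.indicator_of_mem h2, Set.indicator_of_mem (h1.1 h2)]
    rfl
  · rw [Set.indicator_of_notMem h2, Set.indicator_of_notMem fun h3 => h2 (h1.2 h3)]

end Vale.Agent.P167.H601.Q
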